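import Vale.Agent.P155.H924.DetStmt
import Vale.Agent.P155.A.KOp
import Vale.Agent.P155.G.D2

/-!
# P155, block D: the deterministic statement `GoodDet`
-/

namespace Vale.Agent.P155.H801

open Finset

variable {J : ℕ}

/-! ### the kernels -/

theorem kap_div (k : Bool) (X Y : ℝ) {t : ℝ} (ht : t ≠ 0) :
    D4.kap k (X / t) (Y / t) = t * D4.kap k X Y := by
  unfold D4.kap
  by_cases h : X ^ 2 + Y ^ 2 = 0
  · have h' : (X / t) ^ 2 + (Y / t) ^ 2 = 0 := by
      have : (X / t) ^ 2 + (Y / t) ^ 2 = (X ^ 2 + Y ^ 2) / t ^ 2 := by ring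
      rw [this, h, zero_div]
    rw [h, h', div_zero, div_zero, mul_zero]
  · have h' : (X / t) ^ 2 + (Y / t) ^ 2 = (X ^ 2 + Y ^ 2) / t ^ 2 := by ring
    rw [h']
    cases k
    · simp only [Bool.false_eq_true, if_false]; field_simp
    · simp only [if_true]; field_simp

theorem kap_neg (k : Bool) (X Y : ℝ) : D4.kap k (-X) (-Y) = - D4.kap k X Y := by
  unfold D4.kap
  cases k
  · simp only [Bool.false_eq_true, if_false, neg_sq]; ring
  · simp only [if_true, neg_sq]; ring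

theorem kap_diff (k : Bool) {X Y X' Y' : ℝ} (h : 0 < X ^ 2 + Y ^ 2) (h' : 0 < X' ^ 2 + Y' ^ 2) :
    (D4.kap k X Y - D4.kap k X' Y') ^ 2 ≤
      ((X - X') ^ 2 + (Y - Y') ^ 2) / ((X ^ 2 + Y ^ 2) * (X' ^ 2 + Y' ^ 2)) := by
  have e : (D4.kap false X Y - D4.kap false X' Y') ^ 2 + (D4.kap true X Y - D4.kap true X' Y') ^ 2 =
      ((X - X') ^ 2 + (Y - Y') ^ 2) / ((X ^ 2 + Y ^ 2) * (X' ^ 2 + Y' ^ 2)) := by
    unfold D4.kap
    simp only [Bool.false_eq_true, if_false, if_true]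
    have h1 := h.ne'
    have h2 := h'.ne'
    field_simp
    ring
  rw [← e]
  cases k
  · nlinarith [sq_nonneg (D4.kap true X Y - D4.kap true X' Y')]
  · nlinarith [sq_nonneg (D4.kap false X Y - D4.kap false X' Y')]

/-- the sign of the kernel -/
noncomputable def sig (d r : Pt) : ℝ := if d.1 = 1 then 1 else sg r.2

theorem abs_sig (d r : Pt) : |sig d r| = 1 := by
  unfold sig sg
  split_ifs <;> simp

/-- the type of the kernel -/
def kk (d : Pt) : Bool := decide (d.1 ≠ 1)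

theorem sg_congr {a b : ℤ} (h : Even (a - b)) : sg a = sg b := by
  unfold sg
  have : Even a ↔ Even b := by
    rw [Int.even_sub] at h
    exact h
  by_cases hb : Even b
  · rw [if_pos hb, if_pos (this.2 hb)]
  · rw [if_neg hb, if_neg fun h => hb (this.1 h)]

theorem nsq_pos {z : Pt} (h : Odd (z.1 + z.2)) : 1 ≤ nsq z := by
  unfold nsq
  have h1 : z.1 ≠ 0 ∨ z.2 ≠ 0 := by
    by_contra hcon
    push Not at hcon
    rw [hcon.1, hcon.2] at h
    simp at h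
  have h2 : (1 : ℤ) ≤ z.1 ^ 2 + z.2 ^ 2 := by
    rcases h1 with h1 | h1
    · have := sq_nonneg z.2
      have : 0 < z.1 ^ 2 := by positivity
      omega
    · have := sq_nonneg z.1
      have : 0 < z.2 ^ 2 := by positivity
      omega
  exact_mod_cast h2

/-- bound of the plane profile -/
theorem abs_Kp_le {A : Pt → ℝ} {C : ℝ}
    (hC : ∀ z : Pt, Odd (z.1 + z.2) → |A z - Alead z| ≤ C / nsq z) {b w : Pt}
    (hb : Black b) (hw : White w) : |Kp A b w| ≤ 1 + |C| := by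
  have hz : Odd ((b - w).1 + (b - w).2) := by
    unfold Black at hb
    unfold White at hw
    have : (b - w).1 + (b - w).2 = (b.1 + b.2) - (w.1 + w.2) := by
      simp only [Prod.fst_sub, Prod.snd_sub]; ring
    rw [this]
    exact hb.sub_odd hw
  have h1 := nsq_pos hz
  have h2 := hC _ hz
  have h3 : |Alead (b - w)| ≤ 1 := by
    unfold Alead
    rw [abs_div, abs_of_pos (by positivity : 0 < Real.pi * nsq (b - w))]
    rw [div_le_one (by positivity)]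
    have hpi : 1 ≤ Real.pi := by linarith [Real.pi_gt_three]
    have h4 : ∀ a : ℤ, |(a : ℝ)| ≤ (a : ℝ) ^ 2 := by
      intro a
      by_cases ha : a = 0
      · rw [ha]; simp
      · have : (1 : ℤ) ≤ |a| := Int.one_le_abs ha
        have h5 : (1 : ℝ) ≤ |(a : ℝ)| := by exact_mod_cast this
        rw [← sq_abs (a : ℝ)]
        nlinarith
    have h5 : |(if Odd (b - w).1 then ((b - w).1 : ℝ) else ((b - w).2 : ℝ))| ≤ nsq (b - w) := by
      unfold nsq
      split_ifs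
      · have := h4 (b - w).1
        nlinarith [sq_nonneg ((b - w).2 : ℝ)]
      · have := h4 (b - w).2
        nlinarith [sq_nonneg ((b - w).1 : ℝ)]
    calc _ ≤ nsq (b - w) := h5
      _ ≤ Real.pi * nsq (b - w) := by nlinarith
  have h4 : |A (b - w)| ≤ 1 + |C| := by
    have h5 : C / nsq (b - w) ≤ |C| := by
      rw [div_le_iff₀ (by linarith)]
      calc C ≤ |C| := le_abs_self C
        _ ≤ |C| * nsq (b - w) := le_mul_of_one_le_right (abs_nonneg _) h1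
    calc |A (b - w)| = |(A (b - w) - Alead (b - w)) + Alead (b - w)| := by ring_nf
      _ ≤ |A (b - w) - Alead (b - w)| + |Alead (b - w)| := abs_add_le _ _
      _ ≤ 1 + |C| := by linarith
  unfold Kp
  rw [abs_mul]
  have h5 : |(if Odd (b.1 - w.1) then 1 else sg w.2)| = (1 : ℝ) := by
    unfold sg
    split_ifs <;> simp
  rw [h5, one_mul]
  exact h4

/-- the plane kernel at a distance `≥ t` -/
theorem kern {A : Pt → ℝ} {C : ℝ}
    (hC : ∀ z : Pt, Odd (z.1 + z.2) → |A z - Alead z| ≤ C / nsq z) {t : ℝ} (ht : 2 ≤ t)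
    {r d p q : Pt} (hd : d = (1, 0) ∨ d = (0, 1))
    (hp : Even (p.1 - r.1) ∧ Even (p.2 - r.2)) (hq : Even (q.1 - r.1) ∧ Even (q.2 - r.2))
    (hfar : t ≤ |(p.1 : ℝ) - q.1|) :
    |t * Kp A (p + d) q - sig d r / Real.pi *
      D4.kap (kk d) (((p.1 : ℝ) - q.1) / t) (((p.2 : ℝ) - q.2) / t)| ≤ (2 + 4 * |C|) / t := by
  have ht0 : 0 < t := by linarith
  have he1 : Even (p.1 - q.1) := by
    have : p.1 - q.1 = (p.1 - r.1) - (q.1 - r.1) := by ring
    rw [this]; exact hp.1.sub hq.1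
  have he2 : Even (p.2 - q.2) := by
    have : p.2 - q.2 = (p.2 - r.2) - (q.2 - r.2) := by ring
    rw [this]; exact hp.2.sub hq.2
  set z : Pt := p + d - q with hz
  have hz1 : z.1 = p.1 - q.1 + d.1 := by rw [hz]; simp only [Prod.fst_sub, Prod.fst_add]; ring
  have hz2 : z.2 = p.2 - q.2 + d.2 := by rw [hz]; simp only [Prod.snd_sub, Prod.snd_add]; ring
  have hdd : (d.1 : ℝ) ^ 2 + (d.2 : ℝ) ^ 2 = 1 := by rcases hd with rfl | rfl <;> simp
  have hd1 : |(d.1 : ℝ)| ≤ 1 := by rcases hd with rfl | rfl <;> simp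
  have hodd : Odd (z.1 + z.2) := by
    rw [hz1, hz2]
    rcases hd with rfl | rfl
    · have : p.1 - q.1 + 1 + (p.2 - q.2 + 0) = (p.1 - q.1) + (p.2 - q.2) + 1 := by ring
      simp only
      rw [this]
      exact (he1.add he2).add_one
    · have : p.1 - q.1 + 0 + (p.2 - q.2 + 1) = (p.1 - q.1) + (p.2 - q.2) + 1 := by ring
      simp only
      rw [this]
      exact (he1.add he2).add_one
  -- value of `Kp`
  have hK : Kp A (p + d) q = sig d r * A z := by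
    unfold Kp sig
    rw [← hz]
    rcases hd with rfl | rfl
    · rw [if_pos, if_pos rfl]
      simp only [Prod.fst_add]
      have : p.1 + 1 - q.1 = p.1 - q.1 + 1 := by ring
      rw [this]
      exact he1.add_one
    · rw [if_neg, if_neg (by norm_num), sg_congr hq.2]
      simp only [Prod.fst_add, add_zero]
      exact Int.not_odd_iff_even.2 he1
  have hL : t * Alead z = 1 / Real.pi * D4.kap (kk d) ((z.1 : ℝ) / t) ((z.2 : ℝ) / t) := by
    rw [kap_div _ _ _ ht0.ne']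
    unfold Alead D4.kap nsq kk
    rcases hd with rfl | rfl
    · have : Odd z.1 := by rw [hz1]; exact he1.add_one
      rw [if_pos this]
      simp only [ne_eq, not_true_eq_false, decide_false, Bool.false_eq_true, if_false]
      rw [mul_comm Real.pi, ← div_div]
      ring
    · have : ¬ Odd z.1 := by rw [hz1, add_zero]; exact Int.not_odd_iff_even.2 he1
      rw [if_neg this]
      simp only [ne_eq, zero_ne_one, not_false_eq_true, decide_true, if_true]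
      rw [mul_comm Real.pi, ← div_div]
      ring
  -- size of `z`
  have hfz : t / 2 ≤ |(z.1 : ℝ)| := by
    have e : ((p.1 : ℝ) - q.1) = (z.1 : ℝ) - d.1 := by rw [hz1]; push_cast; ring
    rw [e] at hfar
    have := abs_sub (z.1 : ℝ) d.1
    linarith
  have hnz : (t / 2) ^ 2 ≤ nsq z := by
    unfold nsq
    rw [← sq_abs (z.1 : ℝ)]
    have h1 : (t / 2) ^ 2 ≤ |(z.1 : ℝ)| ^ 2 := pow_le_pow_left₀ (by linarith) hfz 2
    have h2 := sq_nonneg (z.2 : ℝ)
    linarith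
  have hnpos : 0 < nsq z := lt_of_lt_of_le (by positivity) hnz
  have h1 : |t * A z - t * Alead z| ≤ 4 * |C| / t := by
    rw [← mul_sub, abs_mul, abs_of_pos ht0]
    have h2 := hC z hodd
    have h3 : C / nsq z ≤ |C| / (t / 2) ^ 2 := by
      rw [div_le_div_iff₀ hnpos (by positivity)]
      exact mul_le_mul (le_abs_self C) hnz (by positivity) (abs_nonneg _)
    calc t * |A z - Alead z| ≤ t * (|C| / (t / 2) ^ 2) :=
          mul_le_mul_of_nonneg_left (h2.trans h3) ht0.le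
      _ = 4 * |C| / t := by field_simp; ring
  -- kernels
  set X : ℝ := (z.1 : ℝ) / t with hX
  set Y : ℝ := (z.2 : ℝ) / t with hY
  set X' : ℝ := ((p.1 : ℝ) - q.1) / t with hX'
  set Y' : ℝ := ((p.2 : ℝ) - q.2) / t with hY'
  have hXX : (X - X') ^ 2 + (Y - Y') ^ 2 = 1 / t ^ 2 := by
    have e1 : X - X' = d.1 / t := by rw [hX, hX', hz1]; push_cast; ring
    have e2 : Y - Y' = d.2 / t := by rw [hY, hY', hz2]; push_cast; ring
    rw [e1, e2, div_pow, div_pow, ← add_div, hdd]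
  have hXpos : 1 / 4 ≤ X ^ 2 + Y ^ 2 := by
    have e : X ^ 2 + Y ^ 2 = nsq z / t ^ 2 := by rw [hX, hY]; unfold nsq; ring
    rw [e, le_div_iff₀ (by positivity)]
    nlinarith
  have hXpos' : 1 ≤ X' ^ 2 + Y' ^ 2 := by
    have h3 : 1 ≤ |X'| := by
      rw [hX', abs_div, abs_of_pos ht0, le_div_iff₀ ht0, one_mul]; exact hfar
    have h4 : 1 ≤ X' ^ 2 := by rw [← sq_abs X']; nlinarith
    nlinarith [sq_nonneg Y']
  have h2 : |D4.kap (kk d) X Y - D4.kap (kk d) X' Y'| ≤ 2 / t := by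
    apply abs_le_of_sq_le_sq _ (by positivity)
    refine (kap_diff (kk d) (by linarith) (by linarith)).trans ?_
    rw [hXX, div_le_iff₀ (by positivity)]
    have h3 : (1 / 4 : ℝ) * 1 ≤ (X ^ 2 + Y ^ 2) * (X' ^ 2 + Y' ^ 2) :=
      mul_le_mul hXpos hXpos' (by norm_num) (by linarith)
    calc 1 / t ^ 2 = (2 / t) ^ 2 * (1 / 4 * 1) := by ring
      _ ≤ _ := mul_le_mul_of_nonneg_left h3 (by positivity)
  have e : t * Kp A (p + d) q - sig d r / Real.pi * D4.kap (kk d) X' Y' =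
      sig d r * ((t * A z - t * Alead z) +
        1 / Real.pi * (D4.kap (kk d) X Y - D4.kap (kk d) X' Y')) := by
    rw [hK, hL]; ring
  rw [e, abs_mul, abs_sig, one_mul]
  have hpi : 1 / Real.pi ≤ 1 := by
    rw [div_le_one Real.pi_pos]; linarith [Real.pi_gt_three]
  calc _ ≤ |t * A z - t * Alead z| + |1 / Real.pi * (D4.kap (kk d) X Y - D4.kap (kk d) X' Y')| :=
        abs_add_le _ _
    _ ≤ 4 * |C| / t + 1 * (2 / t) := by
        rw [abs_mul, abs_of_pos (by positivity : 0 < 1 / Real.pi)]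
        exact add_le_add h1 (mul_le_mul hpi h2 (abs_nonneg _) zero_le_one)
    _ = (2 + 4 * |C|) / t := by ring

/-! ### permuting the variables -/

theorem exists_swap (c : D4.Cf J) : ∃ c' : D4.Cf J, ∀ (x : Pt) (t : ℝ) (p q : Pt),
    D4.Pc c (D4.sc4 x t q p) = D4.Pc c' (D4.sc4 x t p q) := by
  let σ : Equiv.Perm (Fin 4) := Equiv.addRight 2
  have hσ : ∀ i, σ (σ i) = i := by
    intro i
    change i + 2 + 2 = i
    revert i
    decide
  refine ⟨fun β => c (β ∘ σ), fun x t p q => ?_⟩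
  have hz : ∀ i, D4.sc4 x t q p i = D4.sc4 x t p q (σ i) := by
    intro i
    fin_cases i <;> rfl
  unfold D4.Pc
  have h1 : ∀ α : Fin 4 → Fin (J + 1), ∏ i, D4.sc4 x t q p i ^ (α i : ℕ) =
      ∏ j, D4.sc4 x t p q j ^ (α (σ j) : ℕ) := by
    intro α
    rw [← Equiv.prod_comp σ (fun j => D4.sc4 x t p q j ^ (α (σ j) : ℕ))]
    refine Finset.prod_congr rfl fun i _ => ?_
    rw [hσ, hz]
  have e : Function.Involutive (fun β : Fin 4 → Fin (J + 1) => β ∘ σ) := by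
    intro β
    funext i
    simp [hσ]
  rw [← Equiv.sum_comp (Function.Involutive.toPerm _ e)
    (fun α => c α * ∏ i, D4.sc4 x t q p i ^ (α i : ℕ))]
  refine Finset.sum_congr rfl fun β _ => ?_
  rw [h1]
  simp only [Function.Involutive.coe_toPerm, Function.comp_apply, hσ]

/-! ### the polynomial approximation of `Q - K∞⁻¹` -/

theorem mem_box_iff {x v : Pt} {r : ℕ} : v ∈ box x r ↔ |v.1 - x.1| ≤ r ∧ |v.2 - x.2| ≤ r := by
  unfold box
  rw [mem_product, mem_Icc, mem_Icc, abs_le, abs_le]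
  constructor
  · rintro ⟨⟨h1, h2⟩, h3, h4⟩
    exact ⟨⟨by linarith, by linarith⟩, by linarith, by linarith⟩
  · rintro ⟨⟨h1, h2⟩, h3, h4⟩
    exact ⟨⟨by linarith, by linarith⟩, by linarith, by linarith⟩

/-- step two harmonicity at black vertices -/
theorem step_black {F : Pt → ℝ} {x b : Pt} {L : ℕ} (hb : Black b) (hb1 : |b.1 - x.1| ≤ (L : ℤ) - 1)
    (hb2 : |b.2 - x.2| ≤ (L : ℤ) - 1) (hz : ∀ v, White v → v ∈ box x L → Kop F v = 0) :
    F (b.1 + 2, b.2) + F (b.1 - 2, b.2) + F (b.1, b.2 + 2) + F (b.1, b.2 - 2) - 4 * F b = 0 := by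
  have e := KTop_Kop F b
  unfold Black at hb
  obtain ⟨k, hk⟩ := hb
  rw [abs_le] at hb1 hb2
  have h1 : Kop F (b.1 - 1, b.2) = 0 := hz _ ⟨k - 1, by simp only; omega⟩
    (mem_box_iff.2 ⟨abs_le.2 ⟨by simp only; omega, by simp only; omega⟩,
      abs_le.2 ⟨by simp only; omega, by simp only; omega⟩⟩)
  have h2 : Kop F (b.1 + 1, b.2) = 0 := hz _ ⟨k, by simp only; omega⟩
    (mem_box_iff.2 ⟨abs_le.2 ⟨by simp only; omega, by simp only; omega⟩,
      abs_le.2 ⟨by simp only; omega, by simp only; omega⟩⟩)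
  have h3 : Kop F (b.1, b.2 + 1) = 0 := hz _ ⟨k, by simp only; omega⟩
    (mem_box_iff.2 ⟨abs_le.2 ⟨by simp only; omega, by simp only; omega⟩,
      abs_le.2 ⟨by simp only; omega, by simp only; omega⟩⟩)
  have h4 : Kop F (b.1, b.2 - 1) = 0 := hz _ ⟨k - 1, by simp only; omega⟩
    (mem_box_iff.2 ⟨abs_le.2 ⟨by simp only; omega, by simp only; omega⟩,
      abs_le.2 ⟨by simp only; omega, by simp only; omega⟩⟩)
  unfold KTop at e
  rw [h1, h2, h3, h4] at e
  linarith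

/-- step two harmonicity at white vertices -/
theorem step_white {G : Pt → ℝ} {x w : Pt} {L : ℕ} (hw : White w) (hw1 : |w.1 - x.1| ≤ (L : ℤ) - 1)
    (hw2 : |w.2 - x.2| ≤ (L : ℤ) - 1) (hz : ∀ v, Black v → v ∈ box x L → KTop G v = 0) :
    G (w.1 + 2, w.2) + G (w.1 - 2, w.2) + G (w.1, w.2 + 2) + G (w.1, w.2 - 2) - 4 * G w = 0 := by
  have e := Kop_KTop G w
  unfold White at hw
  obtain ⟨k, hk⟩ := hw
  rw [abs_le] at hw1 hw2
  have h1 : KTop G (w.1 - 1, w.2) = 0 := hz _ ⟨k, by simp only; omega⟩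
    (mem_box_iff.2 ⟨abs_le.2 ⟨by simp only; omega, by simp only; omega⟩,
      abs_le.2 ⟨by simp only; omega, by simp only; omega⟩⟩)
  have h2 : KTop G (w.1 + 1, w.2) = 0 := hz _ ⟨k + 1, by simp only; omega⟩
    (mem_box_iff.2 ⟨abs_le.2 ⟨by simp only; omega, by simp only; omega⟩,
      abs_le.2 ⟨by simp only; omega, by simp only; omega⟩⟩)
  have h3 : KTop G (w.1, w.2 + 1) = 0 := hz _ ⟨k + 1, by simp only; omega⟩
    (mem_box_iff.2 ⟨abs_le.2 ⟨by simp only; omega, by simp only; omega⟩,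
      abs_le.2 ⟨by simp only; omega, by simp only; omega⟩⟩)
  have h4 : KTop G (w.1, w.2 - 1) = 0 := hz _ ⟨k, by simp only; omega⟩
    (mem_box_iff.2 ⟨abs_le.2 ⟨by simp only; omega, by simp only; omega⟩,
      abs_le.2 ⟨by simp only; omega, by simp only; omega⟩⟩)
  unfold Kop at e
  rw [h1, h2, h3, h4] at e
  linarith

theorem approx {A : Pt → ℝ} (hA : IsPlane A) (J T m L : ℕ) (hT : 1 ≤ T)
    (hm : 128 * (J + 1) * T ≤ m) (hL : 2 * m + 4 ≤ L) (x : Pt) (Q : Pt → Pt → ℝ) (M : ℝ)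
    (h1 : ∀ w w', White w → White w' → w ∈ box x L → w' ∈ box x L →
      ∑ b ∈ nbrs w', K w' b * Q b w = if w' = w then 1 else 0)
    (h2 : ∀ b b', Black b → Black b' → b ∈ box x L → b' ∈ box x L →
      ∑ w ∈ nbrs b', Q b w * K w b' = if b' = b then 1 else 0)
    (hM : ∀ b w, Black b → White w → b ∈ box x L → w ∈ box x L → |Q b w - Kp A b w| ≤ M)
    {t : ℝ} (ht : 0 < t) {r d : Pt} (hr : r = (1, 0) ∨ r = (0, 1)) (hd : d = (1, 0) ∨ d = (0, 1)) :
    ∃ c : D4.Cf J, ∀ p q : Pt, Even (p.1 - r.1) ∧ Even (p.2 - r.2) →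
      Even (q.1 - r.1) ∧ Even (q.2 - r.2) → dinf x p ≤ 2 * T - 1 → dinf x q ≤ 2 * T - 1 →
      |(Q (p + d) q - Kp A (p + d) q) - D4.Pc c (D4.sc4 x t p q)| ≤
        15 * M * (64 * (J + 1) * (T / m)) ^ (J + 1) := by
  set R : Pt → Pt → ℝ := fun b w => Q b w - Kp A b w with hR
  -- the relations for `R`
  have hR1 : ∀ w, White w → w ∈ box x L → ∀ w', White w' → w' ∈ box x L →
      Kop (fun b => R b w) w' = 0 := by
    intro w hw hwb w' hw' hwb'
    rw [← sum_nbrs_K]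
    have : ∀ b ∈ nbrs w', K w' b * R b w = K w' b * Q b w - K w' b * Kp A b w := by
      intro b _; rw [hR]; ring
    rw [Finset.sum_congr rfl this, Finset.sum_sub_distrib, h1 w w' hw hw' hwb hwb',
      hA.left w w' hw hw', sub_self]
  have hR2 : ∀ b, Black b → b ∈ box x L → ∀ b', Black b' → b' ∈ box x L →
      KTop (fun w => R b w) b' = 0 := by
    intro b hb hbb b' hb' hbb'
    rw [← sum_nbrs_KT]
    have : ∀ w ∈ nbrs b', K w b' * R b w = Q b w * K w b' - Kp A b w * K w b' := by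
      intro w _; rw [hR]; ring
    rw [Finset.sum_congr rfl this, Finset.sum_sub_distrib, h2 b b' hb hb' hbb hbb',
      hA.right b b' hb hb', sub_self]
  -- parities
  have hr1 : 0 ≤ r.1 ∧ r.1 ≤ 1 ∧ 0 ≤ r.2 ∧ r.2 ≤ 1 ∧ r.1 + r.2 = 1 := by
    rcases hr with rfl | rfl <;> simp
  have hd1 : 0 ≤ d.1 ∧ d.1 ≤ 1 ∧ 0 ≤ d.2 ∧ d.2 ≤ 1 ∧ d.1 + d.2 = 1 := by
    rcases hd with rfl | rfl <;> simp
  obtain ⟨r1, r2, r3, r4, r5⟩ := hr1
  obtain ⟨d1, d2, d3, d4, d5⟩ := hd1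
  set F : Pt → Pt → ℝ := fun P S =>
    R (2 * P.1 + r.1 + d.1, 2 * P.2 + r.2 + d.2) (2 * S.1 + r.1, 2 * S.2 + r.2) with hF
  set X : Pt := (x.1 / 2, x.2 / 2) with hX
  have hx1 := Int.mul_ediv_add_emod x.1 2
  have hx2 := Int.mul_ediv_add_emod x.2 2
  have hx3 := Int.emod_two_eq_zero_or_one x.1
  have hx4 := Int.emod_two_eq_zero_or_one x.2
  have hblack : ∀ P : Pt, Black (2 * P.1 + r.1 + d.1, 2 * P.2 + r.2 + d.2) := by
    intro P
    exact ⟨P.1 + P.2 + 1, by simp only; omega⟩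
  have hwhite : ∀ S : Pt, White (2 * S.1 + r.1, 2 * S.2 + r.2) := by
    intro S
    exact ⟨S.1 + S.2, by simp only; omega⟩
  have hX1 : X.1 = x.1 / 2 := rfl
  have hX2 : X.2 = x.2 / 2 := rfl
  have hbb : ∀ (P : Pt) (j : ℤ), dinf X P ≤ j → |2 * P.1 + r.1 + d.1 - x.1| ≤ 2 * j + 2 ∧
      |2 * P.2 + r.2 + d.2 - x.2| ≤ 2 * j + 2 := by
    intro P j hP
    rw [G.dinf_le_iff, abs_le, abs_le, hX1, hX2] at hP
    rw [abs_le, abs_le]
    omega
  have hwb : ∀ (S : Pt) (j : ℤ), dinf X S ≤ j → |2 * S.1 + r.1 - x.1| ≤ 2 * j + 2 ∧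
      |2 * S.2 + r.2 - x.2| ≤ 2 * j + 2 := by
    intro P j hP
    rw [G.dinf_le_iff, abs_le, abs_le, hX1, hX2] at hP
    rw [abs_le, abs_le]
    omega
  have hLz : 2 * (m : ℤ) + 4 ≤ L := by exact_mod_cast hL
  have hin : ∀ (v : Pt), |v.1 - x.1| ≤ 2 * (m : ℤ) + 2 ∧ |v.2 - x.2| ≤ 2 * (m : ℤ) + 2 →
      v ∈ box x L := by
    intro v hv
    exact mem_box_iff.2 ⟨by linarith [hv.1], by linarith [hv.2]⟩
  obtain ⟨c, hc⟩ := G.D2 J T m hT hm F X X M
    (by
      intro P S hP hS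
      exact hM _ _ (hblack P) (hwhite S) (hin _ (hbb P m hP)) (hin _ (hwb S m hS)))
    (by
      intro P S hP hS
      have hP' := hbb P m hP.le
      have := step_black (F := fun b => R b (2 * S.1 + r.1, 2 * S.2 + r.2)) (x := x) (L := L)
        (hblack P) (by linarith [hP'.1]) (by linarith [hP'.2])
        (hR1 _ (hwhite S) (hin _ (hwb S m hS)))
      unfold lap
      rw [hF]
      simp only
      simp only at this
      have e1 : 2 * (P.1 + 1) + r.1 + d.1 = 2 * P.1 + r.1 + d.1 + 2 := by ring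
      have e2 : 2 * (P.1 - 1) + r.1 + d.1 = 2 * P.1 + r.1 + d.1 - 2 := by ring
      have e3 : 2 * (P.2 + 1) + r.2 + d.2 = 2 * P.2 + r.2 + d.2 + 2 := by ring
      have e4 : 2 * (P.2 - 1) + r.2 + d.2 = 2 * P.2 + r.2 + d.2 - 2 := by ring
      rw [e1, e2, e3, e4]
      exact this)
    (by
      intro P S hP hS
      have hS' := hwb S m hS.le
      have := step_white (G := fun w => R (2 * P.1 + r.1 + d.1, 2 * P.2 + r.2 + d.2) w) (x := x)
        (L := L) (hwhite S) (by linarith [hS'.1]) (by linarith [hS'.2])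
        (hR2 _ (hblack P) (hin _ (hbb P m hP)))
      unfold lap
      rw [hF]
      simp only
      simp only at this
      have e1 : 2 * (S.1 + 1) + r.1 = 2 * S.1 + r.1 + 2 := by ring
      have e2 : 2 * (S.1 - 1) + r.1 = 2 * S.1 + r.1 - 2 := by ring
      have e3 : 2 * (S.2 + 1) + r.2 = 2 * S.2 + r.2 + 2 := by ring
      have e4 : 2 * (S.2 - 1) + r.2 = 2 * S.2 + r.2 - 2 := by ring
      rw [e1, e2, e3, e4]
      exact this)
    (t / 2) (by positivity)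
    ![((x.1 : ℝ) - r.1) / 2, ((x.2 : ℝ) - r.2) / 2, ((x.1 : ℝ) - r.1) / 2, ((x.2 : ℝ) - r.2) / 2]
  refine ⟨c, fun p q hp hq hxp hxq => ?_⟩
  obtain ⟨⟨P1, hP1⟩, P2, hP2⟩ := hp
  obtain ⟨⟨S1, hS1⟩, S2, hS2⟩ := hq
  rw [G.dinf_le_iff, abs_le, abs_le] at hxp hxq
  have hcc := hc (P1, P2) (S1, S2)
    (by rw [G.dinf_le_iff, abs_le, abs_le, hX1, hX2]; simp only; omega)
    (by rw [G.dinf_le_iff, abs_le, abs_le, hX1, hX2]; simp only; omega)
  have ep : p + d = (2 * P1 + r.1 + d.1, 2 * P2 + r.2 + d.2) := by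
    ext
    · simp only [Prod.fst_add]; omega
    · simp only [Prod.snd_add]; omega
  have eq : q = (2 * S1 + r.1, 2 * S2 + r.2) := by
    ext
    · simp only; omega
    · simp only; omega
  have eF : Q (p + d) q - Kp A (p + d) q = F (P1, P2) (S1, S2) := by
    rw [hF, hR]
    simp only
    rw [← ep, ← eq]
  have ez : D4.sc4 x t p q = ![(((P1, P2) : Pt).1 - ((x.1 : ℝ) - r.1) / 2) / (t / 2),
      (((P1, P2) : Pt).2 - ((x.2 : ℝ) - r.2) / 2) / (t / 2),
      (((S1, S2) : Pt).1 - ((x.1 : ℝ) - r.1) / 2) / (t / 2),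
      (((S1, S2) : Pt).2 - ((x.2 : ℝ) - r.2) / 2) / (t / 2)] := by
    have a1 : (p.1 : ℝ) = r.1 + (P1 + P1) := by
      have : p.1 = r.1 + (P1 + P1) := by omega
      rw [this]; push_cast; ring
    have a2 : (p.2 : ℝ) = r.2 + (P2 + P2) := by
      have : p.2 = r.2 + (P2 + P2) := by omega
      rw [this]; push_cast; ring
    have a3 : (q.1 : ℝ) = r.1 + (S1 + S1) := by
      have : q.1 = r.1 + (S1 + S1) := by omega
      rw [this]; push_cast; ring
    have a4 : (q.2 : ℝ) = r.2 + (S2 + S2) := by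
      have : q.2 = r.2 + (S2 + S2) := by omega
      rw [this]; push_cast; ring
    unfold D4.sc4
    rw [a1, a2, a3, a4]
    congr 1
    · simp only; field_simp; ring
    · congr 1
      · simp only; field_simp; ring
      · congr 1
        · simp only; field_simp; ring
        · congr 1
          · simp only; field_simp; ring
  rw [eF, ez]
  exact hcc

/-! ### the main statement -/

theorem exists_types {b w : Pt} (hb : Black b) (hw : White w) : ∃ r d : Pt,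
    (r = (1, 0) ∨ r = (0, 1)) ∧ (d = (1, 0) ∨ d = (0, 1)) ∧
    (Even ((b - d).1 - r.1) ∧ Even ((b - d).2 - r.2)) ∧ (Even (w.1 - r.1) ∧ Even (w.2 - r.2)) := by
  obtain ⟨k, hk⟩ := hb
  obtain ⟨l, hl⟩ := hw
  rcases Int.even_or_odd' w.1 with ⟨i, hi | hi⟩ <;> rcases Int.even_or_odd' b.1 with ⟨j, hj | hj⟩
  · refine ⟨(0, 1), (0, 1), Or.inr rfl, Or.inr rfl, ⟨⟨j, ?_⟩, ⟨k - j - 1, ?_⟩⟩, ⟨i, ?_⟩, ⟨l - i, ?_⟩⟩
    all_goals simp only [Prod.fst_sub, Prod.snd_sub]; omega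
  · refine ⟨(0, 1), (1, 0), Or.inr rfl, Or.inl rfl, ⟨⟨j, ?_⟩, ⟨k - j - 1, ?_⟩⟩, ⟨i, ?_⟩, ⟨l - i, ?_⟩⟩
    all_goals simp only [Prod.fst_sub, Prod.snd_sub]; omega
  · refine ⟨(1, 0), (1, 0), Or.inl rfl, Or.inl rfl, ⟨⟨j - 1, ?_⟩, ⟨k - j, ?_⟩⟩, ⟨i, ?_⟩, ⟨l - i, ?_⟩⟩
    all_goals simp only [Prod.fst_sub, Prod.snd_sub]; omega
  · refine ⟨(1, 0), (0, 1), Or.inl rfl, Or.inr rfl, ⟨⟨j, ?_⟩, ⟨k - j - 1, ?_⟩⟩, ⟨i, ?_⟩, ⟨l - i, ?_⟩⟩
    all_goals simp only [Prod.fst_sub, Prod.snd_sub]; omega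

/-- from real coordinates to the sup distance -/
theorem dinf_of_lt {x p : Pt} {t : ℝ} {T : ℕ} (hT : t ≤ T) (hT1 : 1 ≤ T)
    (h1 : |(p.1 : ℝ) - x.1| ≤ t) (h2 : |(p.2 : ℝ) - x.2| ≤ t) : dinf x p ≤ 2 * T - 1 := by
  have a1 : |p.1 - x.1| ≤ T := by
    have : |((p.1 - x.1 : ℤ) : ℝ)| ≤ T := by push_cast; linarith
    exact_mod_cast this
  have a2 : |p.2 - x.2| ≤ T := by
    have : |((p.2 - x.2 : ℤ) : ℝ)| ≤ T := by push_cast; linarith
    exact_mod_cast this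
  have hT2 : (1 : ℤ) ≤ T := by exact_mod_cast hT1
  rw [G.dinf_le_iff]
  exact ⟨by linarith, by linarith⟩

/-- the conclusion of `D4.main` -/
def MainProp (J : ℕ) (k : Bool) (S : List D4.Bx) (C t0 η : ℝ) : Prop :=
  ∀ (t : ℝ) (_ : t0 ≤ t) (x : Pt) (a a' : ℝ) (c c' : D4.Cf J) (f g : Pt → Pt → ℝ) (r r' : Pt)
        (B : ℝ) (_ : 1 / Real.pi ≤ |a|) (_ : 1 / Real.pi ≤ |a'|)
        (_ : ∀ b ∈ S, ∀ p ∈ D4.lat x t (b.u 0) (b.u 1) b.ρ r,
          ∀ q ∈ D4.lat x t (b.u 2) (b.u 3) b.ρ r',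
          |t * f p q - D4.vv k a c (D4.sc4 x t p q)| ≤ η * max 1 ‖c‖)
        (_ : ∀ b ∈ S, ∀ p ∈ D4.lat x t (b.u 0) (b.u 1) b.ρ r,
          ∀ q ∈ D4.lat x t (b.u 2) (b.u 3) b.ρ r',
          |t * g p q - D4.vv k a' c' (D4.sc4 x t p q)| ≤ η * max 1 ‖c'‖)
        (_ : ∀ b ∈ S, |∑ p ∈ D4.lat x t (b.u 0) (b.u 1) b.ρ r,
          ∑ q ∈ D4.lat x t (b.u 2) (b.u 3) b.ρ r', f p q * g p q| ≤ B * t ^ 2),
        ‖c‖ ≤ C * B ∧ ‖c'‖ ≤ C * B

theorem core {A : Pt → ℝ} (hA : IsPlane A) {C : ℝ}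
    (hC : ∀ z : Pt, Odd (z.1 + z.2) → |A z - Alead z| ≤ C / nsq z) (J : ℕ)
    (S : Bool → List D4.Bx) (CC t0 η : Bool → ℝ) (hη : ∀ k, 0 < η k)
    (hmain : ∀ k, MainProp J k (S k) (CC k) (t0 k) (η k)) {Cm : ℝ} (hCm' : ∀ k, CC k ≤ Cm)
    {D1 : ℝ} (hD1pos : 0 ≤ D1) {L m T : ℕ} {M t : ℝ} (ht16 : 16 ≤ t) (hTt : t ≤ T) (hT1 : 1 ≤ T)
    (hmJ : 128 * (J + 1) * T ≤ m) (hLm : 2 * m + 4 ≤ L) (htt0 : ∀ k, t0 k ≤ t)
    (hEt' : ∀ k, (2 + 4 * |C| + D1) / t ≤ η k)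
    (herr : 15 * M * (64 * (J + 1) * (T / m)) ^ (J + 1) ≤ D1 / t ^ 2) {x : Pt} {Q : Pt → Pt → ℝ}
    {B : ℝ} (hB : 1 ≤ B)
    (h1 : ∀ w w', White w → White w' → w ∈ box x L → w' ∈ box x L →
      ∑ b ∈ nbrs w', K w' b * Q b w = if w' = w then 1 else 0)
    (h2 : ∀ b b', Black b → Black b' → b ∈ box x L → b' ∈ box x L →
      ∑ w ∈ nbrs b', Q b w * K w b' = if b' = b then 1 else 0)
    (hM' : ∀ b w, Black b → White w → b ∈ box x L → w ∈ box x L → |Q b w - Kp A b w| ≤ M)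
    (h4 : ∀ k, ∀ s ∈ S k, ∀ r ∈ ({(1, 0), (0, 1)} : Finset Pt),
      ∀ d ∈ ({(1, 0), (0, 1)} : Finset Pt),
      |∑ p ∈ D4.lat x t (s.u 0) (s.u 1) s.ρ r, ∑ q ∈ D4.lat x t (s.u 2) (s.u 3) s.ρ r,
        Q (p + d) q * Q (q + d) p| ≤ B * t ^ 2)
    {b w : Pt} (hb : Black b) (hw : White w) (hbb : b ∈ box x ⌊t / 20⌋₊)
    (hwb : w ∈ box x ⌊t / 20⌋₊) :
    |Q b w - Kp A b w| ≤ (((J : ℝ) + 1) ^ 4 * Cm + D1) * B / t := by
  have ht0' : 0 < t := by linarith
  obtain ⟨r, d, hr, hd, hpr, hqr⟩ := exists_types hb hw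
  obtain ⟨c, hc⟩ := approx hA J T m L hT1 hmJ hLm x Q M h1 h2 hM' ht0' hr hd
  obtain ⟨c', hc'⟩ := exists_swap c
  set k := kk d with hk
  have hEt : (2 + 4 * |C| + D1) / t ≤ η k := hEt' k
  have hab : |sig d r / Real.pi| = 1 / Real.pi := by
    rw [abs_div, abs_sig, abs_of_pos Real.pi_pos]
  -- closeness
  have hgeo : ∀ s ∈ S k, ∀ p ∈ D4.lat x t (s.u 0) (s.u 1) s.ρ r,
      ∀ q ∈ D4.lat x t (s.u 2) (s.u 3) s.ρ r,
      (dinf x p ≤ 2 * T - 1 ∧ dinf x q ≤ 2 * T - 1) ∧ t ≤ (p.1 : ℝ) - q.1 := by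
    intro s hs p hp q hq
    have hz := s.sub (D4.sc4_mem ht0' hp hq)
    obtain ⟨⟨z1, z2⟩, ⟨z3, z4⟩, ⟨z5, z6⟩, ⟨z7, z8⟩⟩ := D4.mem_reg.1 hz
    change _ < ((p.1 : ℝ) - x.1) / t at z1
    change ((p.1 : ℝ) - x.1) / t < _ at z2
    change _ < ((p.2 : ℝ) - x.2) / t at z3
    change ((p.2 : ℝ) - x.2) / t < _ at z4
    change _ < ((q.1 : ℝ) - x.1) / t at z5
    change ((q.1 : ℝ) - x.1) / t < _ at z6
    change _ < ((q.2 : ℝ) - x.2) / t at z7
    change ((q.2 : ℝ) - x.2) / t < _ at z8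
    rw [lt_div_iff₀ ht0'] at z1 z3 z5 z7
    rw [div_lt_iff₀ ht0'] at z2 z4 z6 z8
    refine ⟨⟨dinf_of_lt hTt hT1 (abs_le.2 ⟨by linarith, by linarith⟩)
      (abs_le.2 ⟨by linarith, by linarith⟩),
      dinf_of_lt hTt hT1 (abs_le.2 ⟨by linarith, by linarith⟩)
      (abs_le.2 ⟨by linarith, by linarith⟩)⟩, by linarith⟩
  have hclose : ∀ (a : ℝ) (v v' P : ℝ), |t * v' - a| ≤ (2 + 4 * |C|) / t →
      |(v - v') - P| ≤ 15 * M * (64 * (J + 1) * (T / m)) ^ (J + 1) →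
      |t * v - (a + t * P)| ≤ η k * 1 := by
    intro a v v' P ha hP
    have e : t * v - (a + t * P) = (t * v' - a) + t * ((v - v') - P) := by ring
    rw [e]
    calc |(t * v' - a) + t * ((v - v') - P)| ≤ |t * v' - a| + |t * ((v - v') - P)| :=
          abs_add_le _ _
      _ ≤ (2 + 4 * |C|) / t + t * (D1 / t ^ 2) := by
          rw [abs_mul, abs_of_pos ht0']
          exact add_le_add ha (mul_le_mul_of_nonneg_left (hP.trans herr) ht0'.le)
      _ = (2 + 4 * |C| + D1) / t := by field_simp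
      _ ≤ η k * 1 := by rw [mul_one]; exact hEt
  have hfin := hmain k t (htt0 k) x (sig d r / Real.pi) (-(sig d r / Real.pi))
    (t • c) (t • c') (fun p q => Q (p + d) q) (fun p q => Q (q + d) p) r r B hab.ge
    (by rw [abs_neg]; exact hab.ge)
    (by
      intro s hs p hp q hq
      obtain ⟨⟨g1, g2⟩, g3⟩ := hgeo s hs p hp q hq
      have hpp := ((D4.mem_lat ht0').1 hp).2
      have hqq := ((D4.mem_lat ht0').1 hq).2
      have k1 := kern hC (by linarith : (2 : ℝ) ≤ t) hd hpp hqq (g3.trans (le_abs_self _))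
      have k2 := hc p q hpp hqq g1 g2
      refine (?_ : _ ≤ η k * 1).trans (mul_le_mul_of_nonneg_left (le_max_left _ _) (hη k).le)
      have k3 := hclose _ _ _ _ k1 k2
      unfold D4.vv
      rw [D4.Pc_smul]
      have e1 : D4.sc4 x t p q 0 - D4.sc4 x t p q 2 = ((p.1 : ℝ) - q.1) / t := by
        change ((p.1 : ℝ) - x.1) / t - ((q.1 : ℝ) - x.1) / t = _
        ring
      have e2 : D4.sc4 x t p q 1 - D4.sc4 x t p q 3 = ((p.2 : ℝ) - q.2) / t := by
        change ((p.2 : ℝ) - x.2) / t - ((q.2 : ℝ) - x.2) / t = _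
        ring
      rw [e1, e2]
      exact k3)
    (by
      intro s hs p hp q hq
      obtain ⟨⟨g1, g2⟩, g3⟩ := hgeo s hs p hp q hq
      have hpp := ((D4.mem_lat ht0').1 hp).2
      have hqq := ((D4.mem_lat ht0').1 hq).2
      have k1 := kern hC (by linarith : (2 : ℝ) ≤ t) hd hqq hpp
        (by rw [abs_sub_comm]; exact g3.trans (le_abs_self _))
      have k2 := hc q p hqq hpp g2 g1
      rw [hc'] at k2
      refine (?_ : _ ≤ η k * 1).trans (mul_le_mul_of_nonneg_left (le_max_left _ _) (hη k).le)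
      have k3 := hclose _ _ _ _ k1 k2
      unfold D4.vv
      rw [D4.Pc_smul]
      have e1 : D4.sc4 x t p q 0 - D4.sc4 x t p q 2 = -(((q.1 : ℝ) - p.1) / t) := by
        change ((p.1 : ℝ) - x.1) / t - ((q.1 : ℝ) - x.1) / t = _
        ring
      have e2 : D4.sc4 x t p q 1 - D4.sc4 x t p q 3 = -(((q.2 : ℝ) - p.2) / t) := by
        change ((p.2 : ℝ) - x.2) / t - ((q.2 : ℝ) - x.2) / t = _
        ring
      rw [e1, e2, kap_neg, neg_mul_neg]
      exact k3)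
    (by
      intro s hs
      exact h4 k s hs r (by rcases hr with rfl | rfl <;> simp) d
        (by rcases hd with rfl | rfl <;> simp))
  -- conclusion
  have hbx := mem_box_iff.1 hbb
  have hwx := mem_box_iff.1 hwb
  have hfl : ((⌊t / 20⌋₊ : ℕ) : ℝ) ≤ t / 20 := Nat.floor_le (by positivity)
  have hflz : ∀ a : ℤ, |a| ≤ ((⌊t / 20⌋₊ : ℕ) : ℤ) → |(a : ℝ)| ≤ t / 20 := by
    intro a ha
    have : |(a : ℝ)| ≤ ((⌊t / 20⌋₊ : ℕ) : ℝ) := by exact_mod_cast ha
    linarith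
  have hdle : |(d.1 : ℝ)| ≤ 1 ∧ |(d.2 : ℝ)| ≤ 1 := by rcases hd with rfl | rfl <;> simp
  have hb1 := abs_le.1 (hflz _ hbx.1)
  have hb2 := abs_le.1 (hflz _ hbx.2)
  have hw1 := abs_le.1 (hflz _ hwx.1)
  have hw2 := abs_le.1 (hflz _ hwx.2)
  have hd1 := abs_le.1 hdle.1
  have hd2 := abs_le.1 hdle.2
  push_cast at hb1 hb2 hw1 hw2
  have hp1 : |(((b - d).1 : ℤ) : ℝ) - x.1| ≤ t := by
    rw [abs_le]; simp only [Prod.fst_sub]; push_cast; constructor <;> linarith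
  have hp2 : |(((b - d).2 : ℤ) : ℝ) - x.2| ≤ t := by
    rw [abs_le]; simp only [Prod.snd_sub]; push_cast; constructor <;> linarith
  have hq1 : |((w.1 : ℤ) : ℝ) - x.1| ≤ t := by
    rw [abs_le]; constructor <;> linarith
  have hq2 : |((w.2 : ℤ) : ℝ) - x.2| ≤ t := by
    rw [abs_le]; constructor <;> linarith
  have hcc := hc (b - d) w hpr hqr (dinf_of_lt hTt hT1 hp1 hp2) (dinf_of_lt hTt hT1 hq1 hq2)
  rw [sub_add_cancel] at hcc
  have hz : ∀ i, |D4.sc4 x t (b - d) w i| ≤ 1 := by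
    have aux : ∀ a : ℝ, |a| ≤ t → |a / t| ≤ 1 := by
      intro a ha
      rw [abs_div, abs_of_pos ht0', div_le_one ht0']
      exact ha
    rw [Fin.forall_fin_succ, Fin.forall_fin_succ, Fin.forall_fin_succ, Fin.forall_fin_succ]
    exact ⟨aux _ hp1, aux _ hp2, aux _ hq1, aux _ hq2, fun i => i.elim0⟩
  have hPc : |D4.Pc (t • c) (D4.sc4 x t (b - d) w)| ≤ ((J : ℝ) + 1) ^ 4 * (Cm * B) := by
    refine (D4.abs_Pc_le _ hz).trans (mul_le_mul_of_nonneg_left ?_ (by positivity))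
    exact hfin.1.trans (mul_le_mul_of_nonneg_right (hCm' k) (by linarith))
  rw [D4.Pc_smul, abs_mul, abs_of_pos ht0'] at hPc
  have hQ : |Q b w - Kp A b w| ≤ |D4.Pc c (D4.sc4 x t (b - d) w)| + D1 / t ^ 2 := by
    have h5 : Q b w - Kp A b w = D4.Pc c (D4.sc4 x t (b - d) w) +
      ((Q b w - Kp A b w) - D4.Pc c (D4.sc4 x t (b - d) w)) := by ring
    calc |Q b w - Kp A b w| = |D4.Pc c (D4.sc4 x t (b - d) w) +
          ((Q b w - Kp A b w) - D4.Pc c (D4.sc4 x t (b - d) w))| := by rw [← h5]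
      _ ≤ _ := (abs_add_le _ _).trans (add_le_add le_rfl (hcc.trans herr))
  rw [le_div_iff₀ ht0']
  have h6 : D1 / t ^ 2 * t ≤ D1 * B := by
    have e : D1 / t ^ 2 * t = D1 * (1 / t) := by field_simp
    rw [e]
    apply mul_le_mul_of_nonneg_left _ hD1pos
    rw [div_le_iff₀ ht0']
    nlinarith
  nlinarith [mul_le_mul_of_nonneg_right hQ ht0'.le]

theorem goodDet : H924.GoodDet := by
  intro A hA κ hκ hκ1 c0 hc0 A0
  obtain ⟨C, hC⟩ := hA.asymp
  set A1 : ℝ := max A0 0 with hA1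
  have hA1' : 0 ≤ A1 := le_max_right _ _
  obtain ⟨J, hJ⟩ : ∃ J : ℕ, A1 + 2 ≤ κ * (J + 1) := by
    obtain ⟨J, hJ⟩ := exists_nat_ge ((A1 + 2) / κ)
    refine ⟨J, ?_⟩
    rw [div_le_iff₀ hκ] at hJ
    nlinarith
  have ha0 : 0 < 1 / Real.pi := by positivity
  choose S CC t0 η hCC ht0 hη hmain using fun k => D4.main J k k ha0
  set D1 : ℝ := 15 * (2 + |C|) * (64 * (J + 1) * (8 / c0)) ^ (J + 1) with hD1
  have hD1pos : 0 ≤ D1 := by positivity
  set E : ℝ := 2 + 4 * |C| + D1 with hE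
  have hEpos : 0 < E := by positivity
  set Cm : ℝ := max (CC false) (CC true) with hCm
  have hCm' : ∀ k, CC k ≤ Cm := by
    intro k; cases k
    · exact le_max_left _ _
    · exact le_max_right _ _
  have hCmpos : 0 < Cm := (hCC false).trans_le (hCm' false)
  set tt : ℝ := max (max (t0 false) (t0 true)) (max 16 (max (E / η false) (E / η true))) with htt
  have htt0 : ∀ k, t0 k ≤ tt := by
    intro k
    refine le_trans ?_ (le_max_left _ _)
    cases k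
    · exact le_max_left _ _
    · exact le_max_right _ _
  have htt1 : ∀ k, E / η k ≤ tt := by
    intro k
    refine le_trans ?_ (le_max_right _ _)
    refine le_trans ?_ (le_max_right _ _)
    cases k
    · exact le_max_left _ _
    · exact le_max_right _ _
  have htt2 : 16 ≤ tt := le_trans (le_max_left _ _) (le_max_right _ _)
  -- large `n`
  have hev1 : ∀ᶠ n : ℕ in Filter.atTop, tt ≤ (n : ℝ) ^ (1 - κ) := by
    have := (tendsto_rpow_atTop (by linarith : 0 < 1 - κ)).comp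
      (tendsto_natCast_atTop_atTop (R := ℝ))
    exact this.eventually_ge_atTop tt
  have hev2 : ∀ᶠ n : ℕ in Filter.atTop, 16 / c0 ≤ (n : ℝ) :=
    (tendsto_natCast_atTop_atTop (R := ℝ)).eventually_ge_atTop _
  have hev3 : ∀ᶠ n : ℕ in Filter.atTop, (n : ℝ) ^ (-κ) ≤ c0 / 8 / (128 * (J + 1)) := by
    have := (tendsto_rpow_neg_atTop hκ).comp (tendsto_natCast_atTop_atTop (R := ℝ))
    exact this.eventually_le_const (by positivity)
  obtain ⟨n0, hn0⟩ := Filter.eventually_atTop.1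
    ((hev1.and hev2).and (hev3.and (Filter.eventually_ge_atTop 1)))
  refine ⟨S false ++ S true, ((J : ℝ) + 1) ^ 4 * Cm + D1, n0, by positivity, ?_⟩
  intro n hn x Q B hB h1 h2 h3 h4 b w hb hw hbb hwb
  obtain ⟨⟨hn1, hn2⟩, hn3, hn4⟩ := hn0 n hn
  set t : ℝ := (n : ℝ) ^ (1 - κ) with ht
  have hnpos : (0 : ℝ) < n := by
    have : 0 < n := hn4
    exact_mod_cast this
  have hn1' : (1 : ℝ) ≤ n := by exact_mod_cast hn4
  have ht16 : 16 ≤ t := htt2.trans hn1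
  have ht0' : 0 < t := by linarith
  have htn : t = n * (n : ℝ) ^ (-κ) := by
    rw [ht, sub_eq_add_neg, Real.rpow_add hnpos, Real.rpow_one]
  have htn' : t ≤ n := by
    rw [ht]
    calc (n : ℝ) ^ (1 - κ) ≤ (n : ℝ) ^ (1 : ℝ) :=
          Real.rpow_le_rpow_of_exponent_le hn1' (by linarith)
      _ = n := Real.rpow_one _
  set L : ℕ := ⌊c0 * n⌋₊ with hL
  set m : ℕ := (L - 4) / 2 with hm
  set T : ℕ := ⌈t⌉₊ with hT
  have hTt : t ≤ T := Nat.le_ceil t
  have hT1 : 1 ≤ T := by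
    have : (1 : ℝ) ≤ T := by linarith
    exact_mod_cast this
  have hT2 : (T : ℝ) ≤ 2 * t := by
    have := Nat.ceil_lt_add_one ht0'.le
    linarith
  have hc0n : 16 ≤ c0 * n := by
    rw [div_le_iff₀ hc0] at hn2
    linarith
  have hL1 : c0 * n - 1 < L := by
    have := Nat.lt_floor_add_one (c0 * (n : ℝ))
    linarith
  have hL2 : 4 ≤ L := by
    have : (4 : ℝ) ≤ L := by linarith
    exact_mod_cast this
  have hLm : 2 * m + 4 ≤ L := by omega
  have hm1 : c0 * n / 4 ≤ m := by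
    have : L ≤ 2 * m + 5 := by omega
    have h' : (L : ℝ) ≤ 2 * m + 5 := by exact_mod_cast this
    linarith
  have hm0 : (0 : ℝ) < m := by linarith
  have hTm : (T : ℝ) / m ≤ 8 / c0 * (n : ℝ) ^ (-κ) := by
    rw [div_le_iff₀ hm0]
    calc (T : ℝ) ≤ 2 * t := hT2
      _ = 8 / c0 * (n : ℝ) ^ (-κ) * (c0 * n / 4) := by
          rw [htn]; field_simp; ring
      _ ≤ _ := mul_le_mul_of_nonneg_left hm1 (by positivity)
  have hmJ : 128 * (J + 1) * T ≤ m := by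
    have h5 : (T : ℝ) / m ≤ 1 / (128 * (J + 1)) := by
      refine hTm.trans ?_
      calc 8 / c0 * (n : ℝ) ^ (-κ) ≤ 8 / c0 * (c0 / 8 / (128 * (J + 1))) :=
            mul_le_mul_of_nonneg_left hn3 (by positivity)
        _ = 1 / (128 * (J + 1)) := by field_simp
    rw [div_le_div_iff₀ hm0 (by positivity), one_mul] at h5
    have h6 : (128 : ℝ) * (J + 1) * T ≤ m := by linarith
    exact_mod_cast h6
  -- bound of the difference
  set M : ℝ := (2 + |C|) * (n : ℝ) ^ A1 with hM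
  have hM' : ∀ b w, Black b → White w → b ∈ box x L → w ∈ box x L → |Q b w - Kp A b w| ≤ M := by
    intro b w hb hw hbL hwL
    have h5 := h3 b w hb hw hbL hwL
    have h6 := abs_Kp_le hC hb hw
    have h7 : (n : ℝ) ^ A0 ≤ (n : ℝ) ^ A1 :=
      Real.rpow_le_rpow_of_exponent_le hn1' (le_max_left _ _)
    have h8 : 1 ≤ (n : ℝ) ^ A1 := Real.one_le_rpow hn1' hA1'
    calc |Q b w - Kp A b w| ≤ |Q b w| + |Kp A b w| := abs_sub _ _
      _ ≤ (n : ℝ) ^ A1 + (1 + |C|) * (n : ℝ) ^ A1 := by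
          have : (1 + |C|) ≤ (1 + |C|) * (n : ℝ) ^ A1 := le_mul_of_one_le_right (by positivity) h8
          linarith
      _ = M := by rw [hM]; ring
  -- the error
  have herr : 15 * M * (64 * (J + 1) * (T / m)) ^ (J + 1) ≤ D1 / t ^ 2 := by
    have h5 : (64 * ((J : ℝ) + 1) * (T / m)) ^ (J + 1) ≤
        (64 * (J + 1) * (8 / c0)) ^ (J + 1) * ((n : ℝ) ^ (-κ)) ^ (J + 1) := by
      rw [← mul_pow]
      apply pow_le_pow_left₀ (by positivity)
      calc 64 * ((J : ℝ) + 1) * (T / m) ≤ 64 * (J + 1) * (8 / c0 * (n : ℝ) ^ (-κ)) :=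
            mul_le_mul_of_nonneg_left hTm (by positivity)
        _ = _ := by ring
    have h6 : (n : ℝ) ^ A1 * ((n : ℝ) ^ (-κ)) ^ (J + 1) ≤ 1 / t ^ 2 := by
      rw [← Real.rpow_natCast, ← Real.rpow_mul hnpos.le, ← Real.rpow_add hnpos]
      calc (n : ℝ) ^ (A1 + -κ * ((J + 1 : ℕ) : ℝ)) ≤ (n : ℝ) ^ (-(2 : ℝ)) := by
            apply Real.rpow_le_rpow_of_exponent_le hn1'
            push_cast
            linarith
        _ = 1 / (n : ℝ) ^ 2 := by
            rw [Real.rpow_neg hnpos.le, one_div]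
            norm_num
        _ ≤ 1 / t ^ 2 := one_div_le_one_div_of_le (by positivity)
            (pow_le_pow_left₀ ht0'.le htn' 2)
    calc 15 * M * (64 * (J + 1) * (T / m)) ^ (J + 1)
        ≤ 15 * M * ((64 * (J + 1) * (8 / c0)) ^ (J + 1) * ((n : ℝ) ^ (-κ)) ^ (J + 1)) :=
          mul_le_mul_of_nonneg_left h5 (by positivity)
      _ = D1 * ((n : ℝ) ^ A1 * ((n : ℝ) ^ (-κ)) ^ (J + 1)) := by rw [hM, hD1]; ring
      _ ≤ D1 * (1 / t ^ 2) := mul_le_mul_of_nonneg_left h6 hD1pos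
      _ = D1 / t ^ 2 := by ring
  refine core hA hC J S CC t0 η hη hmain hCm' hD1pos ht16 hTt hT1 hmJ hLm
    (fun k => (htt0 k).trans hn1) (fun k => ?_) herr hB h1 h2 hM' ?_ hb hw hbb hwb
  · rw [div_le_iff₀ ht0']
    have := (htt1 k).trans hn1
    rw [div_le_iff₀ (hη k)] at this
    linarith
  · intro k s hs
    refine h4 s ?_
    rw [List.mem_append]
    cases k
    · exact Or.inl hs
    · exact Or.inr hs

end Vale.Agent.P155.H801
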