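import Mathlib

/-!
P155, block D4: the finite-dimensional argument.  Products of functions in two finite-dimensional
spaces of Lipschitz functions are controlled by local averages.
-/

namespace Vale.Agent.P155.H801

open Set Metric

variable {X : Type*} [MetricSpace X] [CompactSpace X]

/-- on a finite-dimensional space of Lipschitz functions the Lipschitz constant is controlled by
the sup norm -/
theorem exists_lip (V : Submodule ℂ C(X, ℂ)) [FiniteDimensional ℂ V]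
    (hV : ∀ f ∈ V, ∃ K : ℝ, ∀ x y, ‖f x - f y‖ ≤ K * dist x y) :
    ∃ K : ℝ, 0 ≤ K ∧ ∀ f ∈ V, ∀ x y, ‖f x - f y‖ ≤ K * ‖f‖ * dist x y := by
  classical
  let b := Module.finBasis ℂ V
  choose L hL using fun i => hV (b i : C(X, ℂ)) (b i).2
  -- coordinates are continuous
  let φ : V →ₗ[ℂ] (Fin (Module.finrank ℂ V) → ℂ) := b.equivFun.toLinearMap
  have hφ : Continuous φ := LinearMap.continuous_of_finiteDimensional φ
  let Φ : V →L[ℂ] (Fin (Module.finrank ℂ V) → ℂ) := ⟨φ, hφ⟩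
  refine ⟨‖Φ‖ * ∑ i, |L i|, by positivity, fun f hf x y => ?_⟩
  have hsum : f = ∑ i, (b.equivFun ⟨f, hf⟩ i) • (b i : C(X, ℂ)) := by
    have h2 := congrArg (fun v : V => (v : C(X, ℂ))) (b.sum_equivFun ⟨f, hf⟩)
    rw [AddSubmonoidClass.coe_finsetSum] at h2
    exact h2.symm
  have hcoord : ∀ i, ‖b.equivFun ⟨f, hf⟩ i‖ ≤ ‖Φ‖ * ‖f‖ := by
    intro i
    have h1 := Φ.le_opNorm ⟨f, hf⟩
    have h2 : ‖(Φ ⟨f, hf⟩) i‖ ≤ ‖Φ ⟨f, hf⟩‖ := norm_le_pi_norm _ i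
    exact h2.trans h1
  have hev : ∀ z, f z = ∑ i, (b.equivFun ⟨f, hf⟩ i) * (b i : C(X, ℂ)) z := by
    intro z
    conv_lhs => rw [hsum]
    simp [ContinuousMap.coe_sum, Finset.sum_apply]
  calc ‖f x - f y‖ = ‖∑ i, (b.equivFun ⟨f, hf⟩ i) * ((b i : C(X, ℂ)) x - (b i : C(X, ℂ)) y)‖ := by
        rw [hev x, hev y, ← Finset.sum_sub_distrib]
        congr 1
        exact Finset.sum_congr rfl fun i _ => by ring
    _ ≤ ∑ i, ‖Φ‖ * ‖f‖ * (|L i| * dist x y) := by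
        refine (norm_sum_le _ _).trans (Finset.sum_le_sum fun i _ => ?_)
        rw [norm_mul]
        refine mul_le_mul (hcoord i) ?_ (norm_nonneg _) (by positivity)
        exact (hL i x y).trans (mul_le_mul_of_nonneg_right (le_abs_self _) dist_nonneg)
    _ = ‖Φ‖ * (∑ i, |L i|) * ‖f‖ * dist x y := by
        simp only [Finset.mul_sum, Finset.sum_mul]
        exact Finset.sum_congr rfl fun i _ => by ring

/-- the product on two finite-dimensional spaces is bounded below if it has no zero divisors -/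
theorem exists_prod_bound (V₁ V₂ : Submodule ℂ C(X, ℂ)) [FiniteDimensional ℂ V₁]
    [FiniteDimensional ℂ V₂]
    (h : ∀ f ∈ V₁, ∀ g ∈ V₂, f * g = 0 → f = 0 ∨ g = 0) :
    ∃ c : ℝ, 0 < c ∧ ∀ f ∈ V₁, ∀ g ∈ V₂, c * (‖f‖ * ‖g‖) ≤ ‖f * g‖ := by
  classical
  by_cases h1 : ∃ f₀ : V₁, f₀ ≠ 0
  swap
  · refine ⟨1, one_pos, fun f hf g _ => ?_⟩
    have : f = 0 := by
      by_contra hf0
      exact h1 ⟨⟨f, hf⟩, fun h => hf0 (congrArg Subtype.val h)⟩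
    simp [this]
  by_cases h2 : ∃ g₀ : V₂, g₀ ≠ 0
  swap
  · refine ⟨1, one_pos, fun f _ g hg => ?_⟩
    have : g = 0 := by
      by_contra hg0
      exact h2 ⟨⟨g, hg⟩, fun h => hg0 (congrArg Subtype.val h)⟩
    simp [this]
  obtain ⟨f₀, hf₀⟩ := h1
  obtain ⟨g₀, hg₀⟩ := h2
  have : ProperSpace V₁ := FiniteDimensional.proper ℂ V₁
  have : ProperSpace V₂ := FiniteDimensional.proper ℂ V₂
  have hS : IsCompact (sphere (0 : V₁) 1 ×ˢ sphere (0 : V₂) 1) :=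
    (isCompact_sphere _ _).prod (isCompact_sphere _ _)
  have hne : (sphere (0 : V₁) 1 ×ˢ sphere (0 : V₂) 1).Nonempty := by
    refine ⟨((‖f₀‖⁻¹ : ℂ) • f₀, (‖g₀‖⁻¹ : ℂ) • g₀), ?_, ?_⟩
    · rw [mem_sphere_zero_iff_norm]
      exact norm_smul_inv_norm hf₀
    · rw [mem_sphere_zero_iff_norm]
      exact norm_smul_inv_norm hg₀
  have hcont : Continuous fun p : V₁ × V₂ => ‖(p.1 : C(X, ℂ)) * (p.2 : C(X, ℂ))‖ :=
    ((continuous_subtype_val.comp continuous_fst).mul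
      (continuous_subtype_val.comp continuous_snd)).norm
  obtain ⟨p, hp, hmin⟩ := hS.exists_isMinOn hne hcont.continuousOn
  refine ⟨‖(p.1 : C(X, ℂ)) * (p.2 : C(X, ℂ))‖, ?_, ?_⟩
  · rw [norm_pos_iff]
    intro h0
    have hp1 : ‖p.1‖ = 1 := mem_sphere_zero_iff_norm.1 hp.1
    have hp2 : ‖p.2‖ = 1 := mem_sphere_zero_iff_norm.1 hp.2
    rcases h _ p.1.2 _ p.2.2 h0 with h3 | h3
    · have : p.1 = 0 := Subtype.ext h3
      rw [this, norm_zero] at hp1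
      exact zero_ne_one hp1
    · have : p.2 = 0 := Subtype.ext h3
      rw [this, norm_zero] at hp2
      exact zero_ne_one hp2
  · intro f hf g hg
    by_cases hf0 : f = 0
    · simp [hf0]
    by_cases hg0 : g = 0
    · simp [hg0]
    have hfn : ‖f‖ ≠ 0 := norm_ne_zero_iff.2 hf0
    have hgn : ‖g‖ ≠ 0 := norm_ne_zero_iff.2 hg0
    have hf0' : (⟨f, hf⟩ : V₁) ≠ 0 := fun h => hf0 (congrArg Subtype.val h)
    have hg0' : (⟨g, hg⟩ : V₂) ≠ 0 := fun h => hg0 (congrArg Subtype.val h)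
    have h4 := hmin (show (((‖(⟨f, hf⟩ : V₁)‖⁻¹ : ℂ) • (⟨f, hf⟩ : V₁)),
      ((‖(⟨g, hg⟩ : V₂)‖⁻¹ : ℂ) • (⟨g, hg⟩ : V₂))) ∈ (sphere (0 : V₁) 1 ×ˢ sphere (0 : V₂) 1) from
        ⟨mem_sphere_zero_iff_norm.2 (norm_smul_inv_norm hf0'),
        mem_sphere_zero_iff_norm.2 (norm_smul_inv_norm hg0')⟩)
    have h5 : ‖(p.1 : C(X, ℂ)) * (p.2 : C(X, ℂ))‖ ≤
        ‖((‖f‖⁻¹ : ℂ) • f) * ((‖g‖⁻¹ : ℂ) • g)‖ := h4
    have h6 : ((‖f‖⁻¹ : ℂ) • f) * ((‖g‖⁻¹ : ℂ) • g) = ((‖f‖⁻¹ : ℂ) * (‖g‖⁻¹ : ℂ)) • (f * g) :=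
      smul_mul_smul_comm _ _ _ _
    have h7 : ‖(‖f‖⁻¹ : ℂ) * (‖g‖⁻¹ : ℂ)‖ = ‖f‖⁻¹ * ‖g‖⁻¹ := by
      rw [norm_mul, norm_inv, norm_inv, Complex.norm_real, Complex.norm_real, norm_norm, norm_norm]
    rw [h6, norm_smul, h7] at h5
    calc ‖(p.1 : C(X, ℂ)) * (p.2 : C(X, ℂ))‖ * (‖f‖ * ‖g‖)
        ≤ (‖f‖⁻¹ * ‖g‖⁻¹ * ‖f * g‖) * (‖f‖ * ‖g‖) := by gcongr
      _ = ‖f * g‖ := by field_simp

/-- positive distance to a finite-dimensional subspace -/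
theorem exists_dist (P : Submodule ℂ C(X, ℂ)) [FiniteDimensional ℂ P] (k : C(X, ℂ))
    (hk : k ∉ P) : ∃ c : ℝ, 0 < c ∧ ∀ p ∈ P, c ≤ ‖k + p‖ := by
  have hcl : IsClosed (P : Set C(X, ℂ)) := P.closed_of_finiteDimensional
  refine ⟨infDist k (P : Set C(X, ℂ)), ?_, ?_⟩
  · exact (hcl.notMem_iff_infDist_pos ⟨0, P.zero_mem⟩).1 hk
  · intro p hp
    have h1 := infDist_le_dist_of_mem (x := k) (P.neg_mem hp)
    rwa [dist_eq_norm, sub_neg_eq_add] at h1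

/-- numerical absorption used in `d4` -/
theorem absorb {a b c d₁ d₂ B δ K h n : ℝ} (hc : 0 < c) (hd₁ : 0 < d₁) (hd₂ : 0 < d₂)
    (hδ0 : 0 < δ) (hδ : δ ≤ min 1 (c / 8 * min (min d₁ d₂) (d₁ * d₂)))
    (hK : K * h ≤ c / 4) (hn₁ : d₁ ≤ a) (hn₂ : d₂ ≤ b)
    (hprod : c * (a * b) ≤ n) (hsum : n ≤ B + (δ * (b + δ) + a * δ + K * (a * b) * h)) :
    a ≤ 3 / c / d₂ * B ∧ b ≤ 3 / c / d₁ * B := by
  have ha0 : 0 < a := hd₁.trans_le hn₁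
  have hb0 : 0 < b := hd₂.trans_le hn₂
  have hKh : K * (a * b) * h ≤ c / 4 * (a * b) := by
    nlinarith [mul_pos ha0 hb0]
  have hδ1 : δ ≤ 1 := hδ.trans (min_le_left _ _)
  have hδ2 : δ ≤ c / 8 * min (min d₁ d₂) (d₁ * d₂) := hδ.trans (min_le_right _ _)
  have hδa : δ ≤ c / 8 * d₁ := hδ2.trans (mul_le_mul_of_nonneg_left
    ((min_le_left _ _).trans (min_le_left _ _)) (by positivity))
  have hδb : δ ≤ c / 8 * d₂ := hδ2.trans (mul_le_mul_of_nonneg_left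
    ((min_le_left _ _).trans (min_le_right _ _)) (by positivity))
  have hδc : δ ≤ c / 8 * (d₁ * d₂) := hδ2.trans (mul_le_mul_of_nonneg_left
    (min_le_right _ _) (by positivity))
  have e1 : δ * b ≤ c / 8 * (a * b) := by
    calc δ * b ≤ c / 8 * d₁ * b := by gcongr
      _ ≤ c / 8 * a * b := by gcongr
      _ = _ := by ring
  have e2 : a * δ ≤ c / 8 * (a * b) := by
    calc a * δ ≤ a * (c / 8 * d₂) := by gcongr
      _ ≤ a * (c / 8 * b) := by gcongr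
      _ = _ := by ring
  have e3 : δ * δ ≤ c / 8 * (a * b) := by
    calc δ * δ ≤ 1 * (c / 8 * (d₁ * d₂)) := mul_le_mul hδ1 hδc hδ0.le zero_le_one
      _ ≤ 1 * (c / 8 * (a * b)) := by gcongr
      _ = _ := one_mul _
  have hmain : c * (a * b) ≤ B + 5 / 8 * c * (a * b) := by
    have : δ * (b + δ) + a * δ ≤ 3 / 8 * c * (a * b) := by nlinarith
    nlinarith
  have hab : a * b ≤ 8 / 3 * B / c := by
    rw [le_div_iff₀ hc]; nlinarith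
  have hB0 : 0 < B := by
    have h1 : 0 < a * b := mul_pos ha0 hb0
    have h2 : 0 < 8 / 3 * B / c := h1.trans_le hab
    have h3 : 8 / 3 * B / c = B * (8 / 3 / c) := by ring
    rw [h3] at h2
    exact pos_of_mul_pos_left h2 (by positivity)
  constructor
  · have h1 : a * d₂ ≤ 8 / 3 * B / c := (mul_le_mul_of_nonneg_left hn₂ ha0.le).trans hab
    have h2 : 8 / 3 * B / c ≤ 3 * B / c := by gcongr; norm_num
    have h3 : a * d₂ ≤ 3 * B / c := h1.trans h2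
    calc a ≤ (3 * B / c) / d₂ := (le_div_iff₀ hd₂).2 h3
      _ = _ := by ring
  · have h1 : d₁ * b ≤ 8 / 3 * B / c := (mul_le_mul_of_nonneg_right hn₁ hb0.le).trans hab
    have h2 : 8 / 3 * B / c ≤ 3 * B / c := by gcongr; norm_num
    have h3 : b * d₁ ≤ 3 * B / c := by rw [mul_comm]; exact h1.trans h2
    calc b ≤ (3 * B / c) / d₁ := (le_div_iff₀ hd₁).2 h3
      _ = _ := by ring

/-- pointwise comparison used in `d4` -/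
theorem cmp_pt {F₁ F₂ : C(X, ℂ)} {K₁ K₂ δ h : ℝ} (hK₁0 : 0 ≤ K₁) (hK₂0 : 0 ≤ K₂) (hδ0 : 0 < δ)
    (hK₁ : ∀ x y, ‖F₁ x - F₁ y‖ ≤ K₁ * ‖F₁‖ * dist x y)
    (hK₂ : ∀ x y, ‖F₂ x - F₂ y‖ ≤ K₂ * ‖F₂‖ * dist x y) {u v : ℂ} {p x : X}
    (e1 : ‖u - F₁ p‖ ≤ δ) (e2 : ‖v - F₂ p‖ ≤ δ) (d1 : dist p x ≤ h) :
    ‖u * v - (F₁ * F₂) x‖ ≤
      δ * (‖F₂‖ + δ) + ‖F₁‖ * δ + (K₁ + K₂) * (‖F₁‖ * ‖F₂‖) * h := by
  have l1 := hK₁ p x
  have l2 := hK₂ p x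
  have hh0 : 0 ≤ h := dist_nonneg.trans d1
  have n1 : ‖F₁ p‖ ≤ ‖F₁‖ := F₁.norm_coe_le_norm _
  have n2 : ‖F₂ p‖ ≤ ‖F₂‖ := F₂.norm_coe_le_norm _
  have n3 : ‖F₁ x‖ ≤ ‖F₁‖ := F₁.norm_coe_le_norm _
  have hg : ‖v‖ ≤ ‖F₂‖ + δ := by
    calc ‖v‖ = ‖(v - F₂ p) + F₂ p‖ := by rw [sub_add_cancel]
      _ ≤ ‖v - F₂ p‖ + ‖F₂ p‖ := norm_add_le _ _
      _ ≤ _ := by linarith
  have hid : u * v - (F₁ * F₂) x = (u - F₁ p) * v
      + F₁ p * (v - F₂ p) + (F₁ p - F₁ x) * F₂ p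
      + F₁ x * (F₂ p - F₂ x) := by
    simp only [ContinuousMap.mul_apply]
    ring
  rw [hid]
  have t1 : ‖(u - F₁ p) * v‖ ≤ δ * (‖F₂‖ + δ) := by
    rw [norm_mul]; exact mul_le_mul e1 hg (norm_nonneg _) hδ0.le
  have t2 : ‖F₁ p * (v - F₂ p)‖ ≤ ‖F₁‖ * δ := by
    rw [norm_mul]; exact mul_le_mul n1 e2 (norm_nonneg _) (norm_nonneg _)
  have t3 : ‖(F₁ p - F₁ x) * F₂ p‖ ≤ K₁ * ‖F₁‖ * h * ‖F₂‖ := by
    rw [norm_mul]
    refine mul_le_mul (l1.trans ?_) n2 (norm_nonneg _) (by positivity)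
    exact mul_le_mul_of_nonneg_left d1 (by positivity)
  have t4 : ‖F₁ x * (F₂ p - F₂ x)‖ ≤ ‖F₁‖ * (K₂ * ‖F₂‖ * h) := by
    rw [norm_mul]
    refine mul_le_mul n3 (l2.trans ?_) (norm_nonneg _) (by positivity)
    exact mul_le_mul_of_nonneg_left d1 (by positivity)
  calc _ ≤ ‖(u - F₁ p) * v‖ + ‖F₁ p * (v - F₂ p)‖
        + ‖(F₁ p - F₁ x) * F₂ p‖ + ‖F₁ x * (F₂ p - F₂ x)‖ := by
        refine (norm_add_le _ _).trans (add_le_add ((norm_add_le _ _).trans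
          (add_le_add (norm_add_le _ _) le_rfl)) le_rfl)
    _ ≤ δ * (‖F₂‖ + δ) + ‖F₁‖ * δ + K₁ * ‖F₁‖ * h * ‖F₂‖ + ‖F₁‖ * (K₂ * ‖F₂‖ * h) := by
        linarith
    _ = _ := by ring

/-- **D4**: if `f ≈ k₁ + p₁`, `g ≈ k₂ + p₂` with `p₁, p₂` in a finite-dimensional space `P` and the
local averages of `f g` are bounded by `B`, then `p₁` and `p₂` are bounded by `C B`. -/
theorem d4 (P V₁ V₂ : Submodule ℂ C(X, ℂ)) [FiniteDimensional ℂ P] [FiniteDimensional ℂ V₁]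
    [FiniteDimensional ℂ V₂] (k₁ k₂ : C(X, ℂ)) (hk₁ : k₁ ∉ P) (hk₂ : k₂ ∉ P)
    (hV₁ : ∀ p ∈ P, k₁ + p ∈ V₁) (hV₂ : ∀ p ∈ P, k₂ + p ∈ V₂)
    (hL₁ : ∀ f ∈ V₁, ∃ K : ℝ, ∀ x y, ‖f x - f y‖ ≤ K * dist x y)
    (hL₂ : ∀ f ∈ V₂, ∃ K : ℝ, ∀ x y, ‖f x - f y‖ ≤ K * dist x y)
    (hD : ∀ f ∈ V₁, ∀ g ∈ V₂, f * g = 0 → f = 0 ∨ g = 0) :
    ∃ h : ℝ, 0 < h ∧ ∃ δ : ℝ, 0 < δ ∧ ∃ C : ℝ, 1 ≤ C ∧
      ∀ (ι : Type) (pos : ι → X) (f g : ι → ℂ) (B : ℝ), 1 ≤ B →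
      ∀ p₁ ∈ P, ∀ p₂ ∈ P,
      (∀ x : X, ∃ S : Finset ι, S.Nonempty ∧ (∀ i ∈ S, dist (pos i) x ≤ h) ∧
        (∀ i ∈ S, ‖f i - (k₁ + p₁) (pos i)‖ ≤ δ) ∧ (∀ i ∈ S, ‖g i - (k₂ + p₂) (pos i)‖ ≤ δ) ∧
        ‖∑ i ∈ S, f i * g i‖ ≤ B * S.card) →
      ‖p₁‖ ≤ C * B ∧ ‖p₂‖ ≤ C * B := by
  obtain ⟨K₁, hK₁0, hK₁⟩ := exists_lip V₁ hL₁
  obtain ⟨K₂, hK₂0, hK₂⟩ := exists_lip V₂ hL₂
  obtain ⟨c, hc, hcb⟩ := exists_prod_bound V₁ V₂ hD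
  obtain ⟨d₁, hd₁, hdb₁⟩ := exists_dist P k₁ hk₁
  obtain ⟨d₂, hd₂, hdb₂⟩ := exists_dist P k₂ hk₂
  -- choose h and δ
  set h : ℝ := c / (4 * (K₁ + K₂ + 1)) with hh
  set δ : ℝ := min 1 (c / 8 * min (min d₁ d₂) (d₁ * d₂)) with hδ
  have hh0 : 0 < h := by positivity
  have hδ0 : 0 < δ := by positivity
  set C : ℝ := max 1 (max (3 / c / d₂ + ‖k₁‖) (3 / c / d₁ + ‖k₂‖)) with hC
  refine ⟨h, hh0, δ, hδ0, C, le_max_left _ _, ?_⟩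
  intro ι pos f g B hB p₁ hp₁ p₂ hp₂ hS
  set F₁ := k₁ + p₁ with hF₁
  set F₂ := k₂ + p₂ with hF₂
  have hF₁V := hV₁ p₁ hp₁
  have hF₂V := hV₂ p₂ hp₂
  have hn₁ : d₁ ≤ ‖F₁‖ := hdb₁ p₁ hp₁
  have hn₂ : d₂ ≤ ‖F₂‖ := hdb₂ p₂ hp₂
  have hX : Nonempty X := by
    by_contra hX
    rw [not_nonempty_iff] at hX
    have : ‖F₁‖ = 0 := by
      have : F₁ = 0 := by ext x; exact (IsEmpty.false x).elim
      rw [this, norm_zero]
    linarith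
  -- a point where the product attains its norm
  obtain ⟨x, hx⟩ : ∃ x, ‖(F₁ * F₂) x‖ = ‖F₁ * F₂‖ := by
    obtain ⟨x, hx⟩ := (isCompact_univ (X := X)).exists_isMaxOn univ_nonempty
      ((F₁ * F₂).continuous.norm.continuousOn)
    refine ⟨x, le_antisymm ((F₁ * F₂).norm_coe_le_norm x) ?_⟩
    rw [ContinuousMap.norm_le _ (norm_nonneg _)]
    exact fun y => hx.2 (mem_univ y)
  obtain ⟨S, hSne, hSd, hSf, hSg, hSs⟩ := hS x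
  have hcard : (0:ℝ) < S.card := by exact_mod_cast hSne.card_pos
  -- pointwise comparison
  have hpt : ∀ i ∈ S, ‖f i * g i - (F₁ * F₂) x‖ ≤
      δ * (‖F₂‖ + δ) + ‖F₁‖ * δ + (K₁ + K₂) * (‖F₁‖ * ‖F₂‖) * h := fun i hi =>
    cmp_pt hK₁0 hK₂0 hδ0 (hK₁ F₁ hF₁V) (hK₂ F₂ hF₂V) (hSf i hi) (hSg i hi) (hSd i hi)
  have hsum : ‖F₁ * F₂‖ ≤ B + (δ * (‖F₂‖ + δ) + ‖F₁‖ * δ + (K₁ + K₂) * (‖F₁‖ * ‖F₂‖) * h) := by
    have h1 : (S.card : ℂ) * (F₁ * F₂) x = ∑ i ∈ S, f i * g i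
        - ∑ i ∈ S, (f i * g i - (F₁ * F₂) x) := by
      rw [Finset.sum_sub_distrib, Finset.sum_const, nsmul_eq_mul]; ring
    have h2 : (S.card : ℝ) * ‖F₁ * F₂‖ ≤ B * S.card + S.card *
        (δ * (‖F₂‖ + δ) + ‖F₁‖ * δ + (K₁ + K₂) * (‖F₁‖ * ‖F₂‖) * h) := by
      calc (S.card : ℝ) * ‖F₁ * F₂‖ = ‖(S.card : ℂ) * (F₁ * F₂) x‖ := by
            rw [norm_mul (S.card : ℂ) ((F₁ * F₂) x), hx, Complex.norm_natCast]
        _ ≤ ‖∑ i ∈ S, f i * g i‖ + ‖∑ i ∈ S, (f i * g i - (F₁ * F₂) x)‖ := by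
            rw [h1]; exact norm_sub_le _ _
        _ ≤ _ := by
            refine add_le_add hSs ?_
            refine (norm_sum_le _ _).trans ((Finset.sum_le_sum hpt).trans (le_of_eq ?_))
            rw [Finset.sum_const, nsmul_eq_mul]
    have h3 : (S.card : ℝ) * ‖F₁ * F₂‖ ≤ S.card *
        (B + (δ * (‖F₂‖ + δ) + ‖F₁‖ * δ + (K₁ + K₂) * (‖F₁‖ * ‖F₂‖) * h)) := by
      linarith
    exact le_of_mul_le_mul_left h3 hcard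
  have hprod := hcb F₁ hF₁V F₂ hF₂V
  have hB0 : 0 < B := one_pos.trans_le hB
  have hKh : (K₁ + K₂) * h ≤ c / 4 := by
    rw [hh, mul_div_assoc', div_le_div_iff₀ (by positivity) (by norm_num)]
    nlinarith
  obtain ⟨ha1, hb1⟩ := absorb hc hd₁ hd₂ hδ0 (le_of_eq hδ) hKh hn₁ hn₂ hprod hsum
  constructor
  · calc ‖p₁‖ = ‖F₁ - k₁‖ := by rw [hF₁]; congr 1; abel
      _ ≤ ‖F₁‖ + ‖k₁‖ := norm_sub_le _ _
      _ ≤ 3 / c / d₂ * B + ‖k₁‖ * B := by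
          have := norm_nonneg k₁
          nlinarith
      _ = (3 / c / d₂ + ‖k₁‖) * B := by ring
      _ ≤ C * B := by
          refine mul_le_mul_of_nonneg_right ?_ hB0.le
          exact (le_max_left _ _).trans (le_max_right _ _)
  · calc ‖p₂‖ = ‖F₂ - k₂‖ := by rw [hF₂]; congr 1; abel
      _ ≤ ‖F₂‖ + ‖k₂‖ := norm_sub_le _ _
      _ ≤ 3 / c / d₁ * B + ‖k₂‖ * B := by
          have := norm_nonneg k₂
          nlinarith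
      _ = (3 / c / d₁ + ‖k₂‖) * B := by ring
      _ ≤ C * B := by
          refine mul_le_mul_of_nonneg_right ?_ hB0.le
          exact (le_max_right _ _).trans (le_max_right _ _)

end Vale.Agent.P155.H801
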